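import Mathlib
import Vale.Agent.Lib.P235.helper7.Glue

/-!
# P235: the `ℓ_1` distortion of metric spaces glued successively at single points

Let `A_0, …, A_m` be subsets of a (pseudo)metric space such that every `A_j` with `j ≥ 1`
contains a point `v_j` of an earlier piece with `d(a, b) = d(a, v_j) + d(v_j, b)` for all
`a ∈ A_j` and all `b` in the earlier pieces (the pieces are glued successively at single points;
the shortest-path metric of a graph is glued in this way from the metrics on its blocks).  If
every piece embeds into a finite-dimensional `ℓ_1` space with distortion at most `C`, then so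
does the union.  If every piece has at most two points, the union embeds isometrically.
-/

namespace Vale.Agent.Results.P235.PointAmalgams

open Vale.Agent.Lib.P235.H7

theorem result {X : Type*} [PseudoMetricSpace X] (A : ℕ → Set X) (m : ℕ)
    (hglue : ∀ j, 1 ≤ j → j ≤ m → ∃ v ∈ A j, (∃ i < j, v ∈ A i) ∧
      ∀ a ∈ A j, ∀ i < j, ∀ b ∈ A i, dist a b = dist a v + dist v b) :
    (∀ C : ℝ, (∀ j ≤ m, EmbedsL1 (A j) C) → EmbedsL1 {x | ∃ j ≤ m, x ∈ A j} C) ∧
      ((∀ j ≤ m, ∃ p q, A j ⊆ {p, q}) → EmbedsL1 {x | ∃ j ≤ m, x ∈ A j} 1) := by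
  refine ⟨fun C hemb => embeds_chain C A m hemb hglue, fun hpair => ?_⟩
  refine embeds_chain 1 A m (fun j hj => ?_) hglue
  obtain ⟨p, q, hpq⟩ := hpair j hj
  exact embeds_pair (A j) p q hpq

end Vale.Agent.Results.P235.PointAmalgams
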